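import Mathlib

/-! A grid in a subspace of small dimension. -/

open Finset

namespace Vale.Agent.P318.R2.H29

/-- A family of vectors which spans a space of dimension at most `r` has a labelling by
`q ^ r` labels, `q ≥ 2 R √r / η + 2`, such that vectors of norm at most `R` with the same label
have distance at most `η`. -/
theorem grid {V ι : Type*} [Fintype ι] (Y : V → EuclideanSpace ℝ ι) {r : ℕ}
    (hr : Module.finrank ℝ (Submodule.span ℝ (Set.range Y)) ≤ r) {R η : ℝ} (hR : 0 ≤ R)
    (hη : 0 < η) {q : ℕ} (hq : 2 * R * Real.sqrt r / η + 2 ≤ q) :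
    ∃ π : V → Fin (q ^ r), ∀ x y, ‖Y x‖ ≤ R → ‖Y y‖ ≤ R → π x = π y → ‖Y x - Y y‖ ≤ η := by
  classical
  let S := Submodule.span ℝ (Set.range Y)
  let b : OrthonormalBasis (Fin (Module.finrank ℝ S)) ℝ S := stdOrthonormalBasis ℝ S
  let y : V → S := fun x => ⟨Y x, Submodule.subset_span ⟨x, rfl⟩⟩
  let u : V → Fin (Module.finrank ℝ S) → ℝ := fun x i => b.repr (y x) i
  have hu2 : ∀ x x', ‖Y x - Y x'‖ ^ 2 = ∑ i, (u x i - u x' i) ^ 2 := by
    intro x x'
    have h1 : ‖Y x - Y x'‖ = ‖y x - y x'‖ := rfl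
    have h2 : ‖y x - y x'‖ = ‖b.repr (y x - y x')‖ := (LinearIsometryEquiv.norm_map _ _).symm
    rw [h1, h2, EuclideanSpace.norm_sq_eq]
    refine sum_congr rfl fun i _ => ?_
    rw [map_sub, PiLp.sub_apply, Real.norm_eq_abs, sq_abs]
  have hu : ∀ x i, |u x i| ≤ ‖Y x‖ := by
    intro x i
    have h1 : ‖Y x‖ = ‖y x‖ := rfl
    have h2 : ‖y x‖ = ‖b.repr (y x)‖ := (LinearIsometryEquiv.norm_map _ _).symm
    rw [h1, h2]
    exact PiLp.norm_apply_le (b.repr (y x)) i
  have hs0 : 0 ≤ Real.sqrt r := Real.sqrt_nonneg _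
  have hfr : 0 ≤ 2 * R * Real.sqrt r / η := by positivity
  have hq0 : 0 < q := by
    have : (0 : ℝ) < q := by linarith
    exact_mod_cast this
  -- the cell of a coordinate
  let f : V → Fin (Module.finrank ℝ S) → ℕ := fun x i => ⌊(u x i + R) * Real.sqrt r / η⌋₊
  have hf : ∀ x i, ‖Y x‖ ≤ R → f x i < q := by
    intro x i hx
    have h1 := (abs_le.1 (hu x i)).2
    have h2 : (u x i + R) * Real.sqrt r / η ≤ 2 * R * Real.sqrt r / η := by
      apply div_le_div_of_nonneg_right _ hη.le
      exact mul_le_mul_of_nonneg_right (by linarith) hs0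
    have h3 : f x i < q := by
      apply Nat.floor_lt' hq0.ne' |>.2
      linarith
    exact h3
  let g : V → Fin (Module.finrank ℝ S) → Fin q := fun x i =>
    if h : f x i < q then ⟨f x i, h⟩ else ⟨0, hq0⟩
  have hle : q ^ Module.finrank ℝ S ≤ q ^ r := Nat.pow_le_pow_right hq0 hr
  refine ⟨fun x => Fin.castLE hle (finFunctionFinEquiv (g x)), fun x x' hx hx' h => ?_⟩
  have h1 : g x = g x' := finFunctionFinEquiv.injective (Fin.castLE_injective hle h)
  have h2 : ∀ i, f x i = f x' i := by
    intro i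
    have h3 := congrFun h1 i
    simp only [g, dif_pos (hf x i hx), dif_pos (hf x' i hx')] at h3
    exact congrArg Fin.val h3
  have hdiff : ∀ i, (u x i - u x' i) ^ 2 * r ≤ η ^ 2 := by
    intro i
    have a1 : 0 ≤ (u x i + R) * Real.sqrt r / η := by
      have := (abs_le.1 (hu x i)).1
      exact div_nonneg (mul_nonneg (by linarith) hs0) hη.le
    have a2 : 0 ≤ (u x' i + R) * Real.sqrt r / η := by
      have := (abs_le.1 (hu x' i)).1
      exact div_nonneg (mul_nonneg (by linarith) hs0) hη.le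
    have b1 := Nat.floor_le a1
    have b2 := Nat.floor_le a2
    have b3 := Nat.lt_floor_add_one ((u x i + R) * Real.sqrt r / η)
    have b4 := Nat.lt_floor_add_one ((u x' i + R) * Real.sqrt r / η)
    have b5 : (⌊(u x i + R) * Real.sqrt r / η⌋₊ : ℝ) = ⌊(u x' i + R) * Real.sqrt r / η⌋₊ := by
      exact_mod_cast h2 i
    have b6 : |(u x i + R) * Real.sqrt r / η - (u x' i + R) * Real.sqrt r / η| ≤ 1 := by
      rw [abs_le]
      constructor <;> linarith
    have b7 : (u x i + R) * Real.sqrt r / η - (u x' i + R) * Real.sqrt r / η =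
        (u x i - u x' i) * Real.sqrt r / η := by ring
    rw [b7] at b6
    have b8 : ((u x i - u x' i) * Real.sqrt r / η) ^ 2 ≤ 1 := by
      rw [← sq_abs]
      exact pow_le_one₀ (abs_nonneg _) b6
    rw [div_pow, mul_pow, Real.sq_sqrt (Nat.cast_nonneg r), div_le_one (by positivity)] at b8
    exact b8
  have h4 : ‖Y x - Y x'‖ ^ 2 ≤ η ^ 2 := by
    rw [hu2]
    rcases Nat.eq_zero_or_pos r with h0 | hpos
    · have : IsEmpty (Fin (Module.finrank ℝ S)) := by
        have h5 : Module.finrank ℝ S = 0 := by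
          have : Module.finrank ℝ S ≤ r := hr
          omega
        rw [h5]
        infer_instance
      rw [univ_eq_empty, sum_empty]
      positivity
    · have hr0 : (0 : ℝ) < r := by exact_mod_cast hpos
      have h5 : ∀ i, (u x i - u x' i) ^ 2 ≤ η ^ 2 / r := fun i => by
        rw [le_div_iff₀ hr0]
        exact hdiff i
      calc ∑ i, (u x i - u x' i) ^ 2 ≤ ∑ _i : Fin (Module.finrank ℝ S), η ^ 2 / r :=
            sum_le_sum fun i _ => h5 i
        _ = (Module.finrank ℝ S : ℝ) * (η ^ 2 / r) := by simp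
        _ ≤ r * (η ^ 2 / r) := by
            refine mul_le_mul_of_nonneg_right ?_ (by positivity)
            exact_mod_cast hr
        _ = η ^ 2 := by field_simp
  exact (abs_le_of_sq_le_sq h4 hη.le |> fun h => (le_abs_self _).trans h)

end Vale.Agent.P318.R2.H29
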