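import Vale.Agent.P318.R2.H29.Walk

/-!
# A small part of the vertices is spread

It is enough that one vertex in `b` is spread; the bounds are multiplied by `b / 24`, and nothing
is asked of the other vertices.
-/

open Finset

set_option linter.unusedSectionVars false

namespace Vale.Agent.P318.R2.H29

open Vale.Agent.P318.H867 Vale.Agent.P318.H724 Vale.Agent.P318.R2.H344 Vale.Agent.P318.R2.H305
  Vale.Agent.P318.R2.H821

variable {V : Type*} [Fintype V] [DecidableEq V] [Nontrivial V] {c d e : V → V → ℝ}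

/-- **One vertex in `b` is spread: the alternative.** -/
theorem alt_of_spread_set (hc : ∀ i j, 0 ≤ c i j) (hsym : ∀ i j, c i j = c j i) {k : ℕ}
    {H H' b : ℝ} (hH' : 1 ≤ H') (he : Carries c e H) (hb : b * H ≤ 24 * H') (hb2 : b ≤ 24 * H')
    {X : Finset V} (hX : (Fintype.card V : ℝ) ≤ b * X.card) (hsp : ∀ x ∈ X, SpreadAt e k x) :
    Alt0 c k H' := by
  classical
  obtain ⟨he0, hrow, hed⟩ := he
  intro d hd0 hd hs ht τ hτ
  set Q := ∑ x, ∑ y, c x y * d x y with hQ
  have hQ0 : 0 ≤ Q := sum_nonneg fun x _ => sum_nonneg fun y _ => mul_nonneg (hc x y) (hd x y)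
  set n := Fintype.card V with hn
  have hn0 : (0 : ℝ) < n := by
    have : 0 < n := Fintype.card_pos
    exact_mod_cast this
  have hphi := phi_nonneg hc
  set W' := X.filter fun w => n ≤ 32 * k * (ball d w (τ / 2)).card with hW'
  set W'' := X.filter fun w => ¬ n ≤ 32 * k * (ball d w (τ / 2)).card with hW''
  have hcard : (W'.card : ℝ) + W''.card = X.card := by
    exact_mod_cast card_filter_add_card_filter_not (s := X)
      (fun w => n ≤ 32 * k * (ball d w (τ / 2)).card)
  have hXpos : (0 : ℝ) < X.card := by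
    rcases (Nat.cast_nonneg X.card : (0 : ℝ) ≤ X.card).eq_or_lt with h | h
    · rw [← h, mul_zero] at hX
      linarith
    · exact h
  have hb0 : 0 < b := by
    by_contra h
    rw [not_lt] at h
    have := mul_nonpos_of_nonpos_of_nonneg h hXpos.le
    linarith
  -- the spread vertices with a small ball
  have hbad : phi c * (τ * (n * W''.card)) ≤ 16 * (H * Q) := by
    have h1 : ∑ w ∈ W'', τ / 8 * ∑ y, e w y ≤ H * Q := by
      refine le_trans (sum_le_sum fun w hw => ?_) (le_trans
        (sum_le_sum_of_subset_of_nonneg (subset_univ W'') fun x _ _ =>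
          sum_nonneg fun y _ => mul_nonneg (he0 x y) (hd x y)) (hed d hd0 hd hs ht))
      have h2 := bad_vertex he0 hd (hsp w (mem_filter.1 hw).1) (r := τ / 2) (by positivity)
        (mem_filter.1 hw).2
      linarith
    have h3 : ∑ w ∈ W'', phi c * (τ * n) ≤ 16 * ∑ w ∈ W'', τ / 8 * ∑ y, e w y := by
      rw [mul_sum]
      refine sum_le_sum fun w _ => ?_
      have h4 := (vertex_cut hc w).trans (mul_le_mul_of_nonneg_left (hrow w) (by norm_num))
      have h5 := mul_le_mul_of_nonneg_left h4 hτ.le
      linarith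
    rw [sum_const, nsmul_eq_mul] at h3
    linarith
  by_cases hcase : (X.card : ℝ) ≤ 2 * W''.card
  · left
    have h1 : (n : ℝ) ^ 2 ≤ 2 * b * (n * W''.card) := by
      have h2 : (n : ℝ) ≤ b * (2 * W''.card) := hX.trans (mul_le_mul_of_nonneg_left hcase hb0.le)
      nlinarith
    have h2 : phi c * (τ * (n : ℝ) ^ 2) ≤ 2 * b * (phi c * (τ * (n * W''.card))) := by
      have h3 := mul_le_mul_of_nonneg_left h1 (mul_nonneg hphi hτ.le)
      linarith
    have h4 := mul_le_mul_of_nonneg_left hbad (show 0 ≤ 2 * b by positivity)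
    have h5 := mul_le_mul_of_nonneg_right hb hQ0
    linarith
  · rw [not_le] at hcase
    have hW : (X.card : ℝ) < 2 * W'.card := by linarith
    set F : V → ℝ := fun x => W'.fold min (τ / 2) fun w => d x w with hF
    have hFle : ∀ x, ∀ w ∈ W', F x ≤ d x w := fun x w hw =>
      (Finset.fold_min_le _).2 (Or.inr ⟨w, hw, le_rfl⟩)
    have hF2 : ∀ x, F x ≤ τ / 2 := fun x => (Finset.fold_min_le _).2 (Or.inl le_rfl)
    have hFd : ∀ x y, F x - F y ≤ d x y := by
      intro x y
      have h : F x - d x y ≤ F y := by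
        refine (Finset.le_fold_min _).2 ⟨by linarith [hF2 x, hd x y], fun w hw => ?_⟩
        linarith [hFle x w hw, ht x y w]
      linarith
    have hFlip : ∀ x y, |F x - F y| ≤ d x y := by
      intro x y
      have h1 := hFd x y
      have h2 := hFd y x
      rw [hs y x] at h2
      rw [abs_le]
      constructor <;> linarith
    set Hi := univ.filter fun x => τ / 2 ≤ F x with hHi
    by_cases hcase2 : (n : ℝ) / 16 ≤ Hi.card
    · left
      have e1 : 2 * ((Hi.card : ℝ) * W'.card * (τ / 2)) ≤ ∑ x, ∑ y, |F x - F y| := by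
        refine sum_abs_ge ?_ ?_
        · intro x hx y hy
          rw [hHi, mem_filter] at hx
          have a2 := hFle y y hy
          rw [hd0] at a2
          linarith [hx.2]
        · refine disjoint_left.2 fun x hx hx2 => ?_
          rw [hHi, mem_filter] at hx
          have a2 := hFle x x hx2
          rw [hd0] at a2
          linarith [hx.2]
      have e2 := lip_bound (c := c) (d := d) hc hsym hFlip
      have e3 : (n : ℝ) ^ 2 ≤ 32 * b * ((Hi.card : ℝ) * W'.card) := by
        have h2 : (n : ℝ) ≤ b * (2 * W'.card) :=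
          hX.trans (mul_le_mul_of_nonneg_left hW.le hb0.le)
        have h3 := mul_le_mul hcase2 h2 hn0.le (Nat.cast_nonneg _)
        linarith
      have e4 : phi c * (τ * (n : ℝ) ^ 2) ≤ 32 * b *
          (phi c * (2 * ((Hi.card : ℝ) * W'.card * (τ / 2)))) := by
        have h3 := mul_le_mul_of_nonneg_left e3 (mul_nonneg hphi hτ.le)
        linarith
      have e5 := (mul_le_mul_of_nonneg_left e1 hphi).trans e2
      have e6 := mul_le_mul_of_nonneg_left e5 (show 0 ≤ 32 * b by positivity)
      have e7 := mul_le_mul_of_nonneg_right hb2 hQ0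
      linarith
    · right
      rw [not_le] at hcase2
      refine ⟨univ.filter fun x => F x < τ / 2, ?_, fun x hx => ?_⟩
      · have h1 : (univ.filter fun x => F x < τ / 2).card + Hi.card = n := by
          have h2 := card_filter_add_card_filter_not (s := (univ : Finset V))
            (fun x => F x < τ / 2)
          simp only [not_lt] at h2
          rw [h2, card_univ]
        have h2 : ((univ.filter fun x => F x < τ / 2).card : ℝ) + Hi.card = n := by
          exact_mod_cast h1
        linarith
      · rcases (Finset.fold_min_lt _).1 (mem_filter.1 hx).2 with h | ⟨w, hw, hwx⟩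
        · exact absurd h (lt_irrefl _)
        · refine (mem_filter.1 hw).2.trans (Nat.mul_le_mul_left _ (card_le_card fun y hy => ?_))
          rw [mem_ball] at hy ⊢
          have h1 := ht x w y
          linarith

/-- **One vertex in `b` is spread: the bounds.** -/
theorem main_part (hc : ∀ i j, 0 ≤ c i j) (hsym : ∀ i j, c i j = c j i) {k : ℕ} (hk : 1 ≤ k)
    {H H' b : ℝ} (hH' : 1 ≤ H') (he : Carries c e H) (hb : b * H ≤ 24 * H') (hb2 : b ≤ 24 * H')
    {X : Finset V} (hX : (Fintype.card V : ℝ) ≤ b * X.card) (hsp : ∀ x ∈ X, SpreadAt e k x) :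
    phi c ≤ 100000000000000 * H' * Real.sqrt (1 + (Nat.log 2 k : ℝ)) * glValue c ∧
    ∀ d : V → V → ℝ, (∀ i, d i i = 0) → (∀ i j, d i j = d j i) →
      (∀ i j k, d i k ≤ d i j + d j k) →
      phi c * ∑ i, ∑ j, d i j ≤ 52434 * (H' + (Nat.log 2 k : ℝ)) * ∑ i, ∑ j, c i j * d i j := by
  have halt := alt_of_spread_set hc hsym hH' he hb hb2 hX hsp
  refine ⟨gap_bound0 hc hsym hk hH' halt, fun d hd0 hs ht => ?_⟩
  refine metric_bound0 hc hsym hk hH' halt hd0 (fun x y => ?_) hs ht
  have h1 := ht x y x
  rw [hd0, hs y x] at h1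
  linarith

/-- **Some spread walks are enough**: if from every `x ∈ X` the walk, after `t x ≤ H` steps, hits
no set of fewer than `n / k` vertices with probability at least `3 / 4`, and `X` has at least
`n / (24 b)` elements (`b ≥ 1`), the gap is `O(b H √(1 + log k))`. -/
theorem walk_part (hc : ∀ i j, 0 ≤ c i j) (hsym : ∀ i j, c i j = c j i) {k : ℕ}
    (hk : 1 ≤ k) {H : ℝ} (hH : 1 ≤ H) {t : V → ℕ} (htH : ∀ x, (t x : ℝ) ≤ H) {b : ℝ}
    (hb : 1 ≤ b) {X : Finset V} (hX : (Fintype.card V : ℝ) ≤ 24 * b * X.card)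
    (h : ∀ x ∈ X, ∀ S : Finset V, 3 ≤ 4 * ∑ y ∈ S, (walk c ^ t x) x y →
      Fintype.card V ≤ k * S.card) :
    phi c ≤ 100000000000000 * (b * H) * Real.sqrt (1 + (Nat.log 2 k : ℝ)) * glValue c ∧
    ∀ d : V → V → ℝ, (∀ i, d i i = 0) → (∀ i j, d i j = d j i) →
      (∀ i j k, d i k ≤ d i j + d j k) →
      phi c * ∑ i, ∑ j, d i j ≤
        52434 * (b * H + (Nat.log 2 k : ℝ)) * ∑ i, ∑ j, c i j * d i j :=
  main_part hc hsym hk (one_le_mul_of_one_le_of_one_le hb hH) (walkKernel_carries hc hsym htH)
    (by linarith) (by nlinarith) hX fun x hx => spreadAt_walk hc hsym (h x hx)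

end Vale.Agent.P318.R2.H29
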