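import Vale.Agent.P318.R2.H821.SpreadMain

/-!
# Small sets with a large boundary

Region growing: if every small set has a boundary which is larger than forced by a factor of
order `log n / H`, the gap is `O(H √(1 + log k))`.
-/

open Finset

set_option linter.unusedSectionVars false

namespace Vale.Agent.P318.R2.H29

open Vale.Agent.P318.H867 Vale.Agent.P318.H724 Vale.Agent.P318.R2.H344 Vale.Agent.P318.R2.H821

section

variable {V : Type*} [Fintype V] [DecidableEq V] {c d : V → V → ℝ}

/-- A threshold with a small cut. -/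
lemma exists_threshold (hc : ∀ i j, 0 ≤ c i j) (f : V → ℝ) {a b : ℝ} (hab : a < b) :
    ∃ t, a ≤ t ∧ t < b ∧
      (b - a) * (∑ x, ∑ y, c x y * |(if t < f x then (1:ℝ) else 0) - (if t < f y then 1 else 0)|) ≤
        ∑ x, ∑ y, c x y * |f x - f y| := by
  set F : ℝ → ℝ := fun t =>
    ∑ x, ∑ y, c x y * |(if t < f x then (1:ℝ) else 0) - (if t < f y then 1 else 0)| with hF
  have hint := fun x y => integrable_layer (f x) (f y)
  have hFint : MeasureTheory.Integrable F :=
    MeasureTheory.integrable_finsetSum _ fun x _ =>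
      MeasureTheory.integrable_finsetSum _ fun y _ => (hint x y).const_mul _
  have hF0 : ∀ t, 0 ≤ F t := fun t => sum_nonneg fun x _ => sum_nonneg fun y _ =>
    mul_nonneg (hc x y) (abs_nonneg _)
  have h2 : ∑ x, ∑ y, c x y * |f x - f y| = ∫ t, F t := by
    rw [MeasureTheory.integral_finsetSum _ (fun x _ =>
      MeasureTheory.integrable_finsetSum _ fun y _ => (hint x y).const_mul _)]
    apply sum_congr rfl; intro x _
    rw [MeasureTheory.integral_finsetSum _ (fun y _ => (hint x y).const_mul _)]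
    apply sum_congr rfl; intro y _
    rw [MeasureTheory.integral_const_mul, abs_sub_eq_integral]
  have hvol : MeasureTheory.volume (Set.Ico a b) = ENNReal.ofReal (b - a) := Real.volume_Ico
  have hba : 0 < b - a := by linarith
  obtain ⟨t, ht, h3⟩ := MeasureTheory.exists_le_setAverage (μ := MeasureTheory.volume)
    (s := Set.Ico a b) (f := F)
    (by rw [hvol]; simpa using hba) (by rw [hvol]; exact ENNReal.ofReal_ne_top)
    hFint.integrableOn
  refine ⟨t, ht.1, ht.2, ?_⟩
  rw [MeasureTheory.setAverage_eq] at h3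
  have h4 : MeasureTheory.volume.real (Set.Ico a b) = b - a := by
    rw [MeasureTheory.Measure.real, hvol, ENNReal.toReal_ofReal hba.le]
  rw [h4, smul_eq_mul] at h3
  have h5 : ∫ t in Set.Ico a b, F t ≤ ∫ t, F t :=
    MeasureTheory.setIntegral_le_integral hFint (Filter.Eventually.of_forall hF0)
  rw [h2]
  have h6 := mul_le_mul_of_nonneg_left h3 hba.le
  rw [← mul_assoc, mul_inv_cancel₀ hba.ne', one_mul] at h6
  exact h6.trans h5

/-- The capacity between `S` and `R` minus `S`. -/
def cutIn (c : V → V → ℝ) (R S : Finset V) : ℝ := ∑ x ∈ S, ∑ y ∈ R \ S, c x y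

/-- The charge of a vertex. -/
def wt (c d : V → V → ℝ) (q : ℝ) (x : V) : ℝ := q + ∑ y, c x y * d x y

/-- One region. -/
lemma region (hc : ∀ i j, 0 ≤ c i j) (hsym : ∀ i j, c i j = c j i)
    (hd0 : ∀ x, d x x = 0) (hd : ∀ x y, 0 ≤ d x y) (hs : ∀ x y, d x y = d y x)
    (ht : ∀ x y z, d x z ≤ d x y + d y z) (R : Finset V) {x₀ : V} (hx₀ : x₀ ∈ R)
    {τ : ℝ} (hτ : 0 < τ) {J : ℕ} {q : ℝ} (hq : 0 ≤ q)
    (hJ : ∑ x, wt c d q x < 2 ^ J * q) :
    ∃ r, 0 ≤ r ∧ r < τ ∧
      τ * cutIn c R (R.filter fun x => d x₀ x ≤ r) ≤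
        2 * J * ∑ x ∈ R.filter (fun x => d x₀ x ≤ r), wt c d q x := by
  classical
  have hw0 : ∀ x, 0 ≤ wt c d q x := fun x =>
    add_nonneg hq (sum_nonneg fun y _ => mul_nonneg (hc x y) (hd x y))
  have hwq : ∀ x, q ≤ wt c d q x := fun x =>
    le_add_of_nonneg_right (sum_nonneg fun y _ => mul_nonneg (hc x y) (hd x y))
  have hJ0 : 0 < J := by
    rcases Nat.eq_zero_or_pos J with h | h
    · exfalso
      rw [h, pow_zero, one_mul] at hJ
      have h1 : wt c d q x₀ ≤ ∑ x, wt c d q x :=
        single_le_sum (fun x _ => hw0 x) (mem_univ x₀)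
      linarith [hwq x₀]
    · exact h
  have hJr : (0 : ℝ) < J := by exact_mod_cast hJ0
  set vol : ℕ → ℝ := fun j => ∑ x ∈ R.filter (fun x => d x₀ x ≤ j * (τ / J)), wt c d q x with hvol
  have hvol0 : q ≤ vol 0 := by
    refine (hwq x₀).trans (single_le_sum (f := fun x => wt c d q x) (fun x _ => hw0 x) ?_)
    rw [mem_filter]
    exact ⟨hx₀, by rw [hd0]; simp⟩
  have hvolle : ∀ j, vol j ≤ ∑ x, wt c d q x := fun j =>
    sum_le_sum_of_subset_of_nonneg (subset_univ _) fun x _ _ => hw0 x
  obtain ⟨j, hjJ, hj⟩ : ∃ j < J, vol (j + 1) ≤ 2 * vol j := by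
    by_contra hcon
    push Not at hcon
    have h1 : ∀ j ≤ J, 2 ^ j * q ≤ vol j := by
      intro j
      induction j with
      | zero => intro _; rw [pow_zero, one_mul]; exact hvol0
      | succ j ih =>
        intro hj
        have h2 := ih (by omega)
        have h3 := hcon j (by omega)
        rw [pow_succ]
        linarith
    exact absurd ((h1 J le_rfl).trans (hvolle J)) (not_le.2 hJ)
  -- the threshold in the annulus
  set a : ℝ := j * (τ / J) with ha
  set b : ℝ := ((j + 1 : ℕ) : ℝ) * (τ / J) with hb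
  have hba : b - a = τ / J := by rw [ha, hb]; push_cast; ring
  have hstep : 0 < τ / J := by positivity
  have hab : a < b := by linarith
  have ha0 : 0 ≤ a := by positivity
  have hbτ : b ≤ τ := by
    have h1 : ((j + 1 : ℕ) : ℝ) ≤ J := by exact_mod_cast hjJ
    calc b ≤ J * (τ / J) := mul_le_mul_of_nonneg_right h1 hstep.le
      _ = τ := by field_simp
  set f : V → ℝ := fun x => max a (min (d x₀ x) b) with hf
  set cR : V → V → ℝ := fun x y => if x ∈ R ∧ y ∈ R then c x y else 0 with hcR
  have hcR0 : ∀ x y, 0 ≤ cR x y := fun x y => by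
    simp only [hcR]
    split_ifs
    · exact hc x y
    · exact le_rfl
  obtain ⟨t, hat, htb, hcut⟩ := exists_threshold hcR0 f hab
  refine ⟨t, ha0.trans hat, htb.trans_le hbτ, ?_⟩
  set S := R.filter fun x => d x₀ x ≤ t with hS
  have hft : ∀ x, t < f x ↔ ¬ d x₀ x ≤ t := by
    intro x
    simp only [hf, lt_max_iff, lt_min_iff, not_le]
    constructor
    · rintro (h | h)
      · exact absurd h (not_lt.2 hat)
      · exact h.1
    · intro h
      exact Or.inr ⟨h, htb⟩
  -- the left side is twice the cut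
  have h1 : 2 * cutIn c R S ≤ ∑ x, ∑ y, cR x y *
      |(if t < f x then (1:ℝ) else 0) - (if t < f y then 1 else 0)| := by
    have e1 : cutIn c R S ≤ ∑ x ∈ S, ∑ y, cR x y *
        |(if t < f x then (1:ℝ) else 0) - (if t < f y then 1 else 0)| := by
      unfold cutIn
      refine sum_le_sum fun x hx => ?_
      refine le_trans (le_of_eq ?_) (sum_le_sum_of_subset_of_nonneg (subset_univ (R \ S))
        fun y _ _ => mul_nonneg (hcR0 x y) (abs_nonneg _))
      refine sum_congr rfl fun y hy => ?_
      rw [hS, mem_filter] at hx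
      rw [mem_sdiff, hS, mem_filter] at hy
      have hy2 : ¬ d x₀ y ≤ t := fun h => hy.2 ⟨hy.1, h⟩
      have hx2 : ¬ t < f x := fun h => (hft x).1 h hx.2
      rw [if_neg hx2, if_pos ((hft y).2 hy2)]
      simp only [hcR, if_pos (And.intro hx.1 hy.1)]
      norm_num
    have e2 : cutIn c R S ≤ ∑ x ∈ Sᶜ, ∑ y, cR x y *
        |(if t < f x then (1:ℝ) else 0) - (if t < f y then 1 else 0)| := by
      have e3 : cutIn c R S = ∑ x ∈ R \ S, ∑ y ∈ S, c x y := by
        unfold cutIn
        rw [sum_comm]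
        exact sum_congr rfl fun x _ => sum_congr rfl fun y _ => hsym y x
      rw [e3]
      refine le_trans (sum_le_sum fun x hx => ?_) (sum_le_sum_of_subset_of_nonneg
        (s := R \ S) (t := Sᶜ) (fun x hx => mem_compl.2 (mem_sdiff.1 hx).2)
        fun x _ _ => sum_nonneg fun y _ => mul_nonneg (hcR0 x y) (abs_nonneg _))
      refine le_trans (le_of_eq ?_) (sum_le_sum_of_subset_of_nonneg (subset_univ S)
        fun y _ _ => mul_nonneg (hcR0 x y) (abs_nonneg _))
      refine sum_congr rfl fun y hy => ?_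
      rw [hS, mem_filter] at hy
      rw [mem_sdiff, hS, mem_filter] at hx
      have hx2 : ¬ d x₀ x ≤ t := fun h => hx.2 ⟨hx.1, h⟩
      have hy2 : ¬ t < f y := fun h => (hft y).1 h hy.2
      rw [if_neg hy2, if_pos ((hft x).2 hx2)]
      simp only [hcR, if_pos (And.intro hx.1 hy.1)]
      norm_num
    rw [← sum_add_sum_compl S]
    linarith
  -- the right side is at most twice the volume
  have hfd : ∀ x y, |f x - f y| ≤ d x y := by
    intro x y
    have g1 := abs_max_sub_max_le_max a (min (d x₀ x) b) a (min (d x₀ y) b)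
    rw [sub_self, abs_zero, max_eq_right (abs_nonneg (min (d x₀ x) b - min (d x₀ y) b))] at g1
    have g2 := abs_min_sub_min_le_max (d x₀ x) b (d x₀ y) b
    rw [sub_self, abs_zero, max_eq_left (abs_nonneg (d x₀ x - d x₀ y))] at g2
    refine g1.trans (g2.trans ?_)
    rw [abs_le]
    have h1 := ht x₀ x y
    have h2 := ht x₀ y x
    rw [hs y x] at h2
    constructor <;> linarith
  have hfb : ∀ x, b ≤ d x₀ x → f x = b := by
    intro x hx
    simp only [hf]
    rw [min_eq_right hx, max_eq_right hab.le]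
  have h2 : ∑ x, ∑ y, cR x y * |f x - f y| ≤ 2 * vol (j + 1) := by
    have e0 : ∀ x y, cR x y * |f x - f y| ≤
        (if x ∈ R ∧ d x₀ x ≤ b then c x y * d x y else 0) +
          (if y ∈ R ∧ d x₀ y ≤ b then c x y * d x y else 0) := by
      intro x y
      have hcd : 0 ≤ c x y * d x y := mul_nonneg (hc x y) (hd x y)
      have p1 : 0 ≤ (if x ∈ R ∧ d x₀ x ≤ b then c x y * d x y else 0) := by
        split_ifs
        · exact hcd
        · exact le_rfl
      have p2 : 0 ≤ (if y ∈ R ∧ d x₀ y ≤ b then c x y * d x y else 0) := by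
        split_ifs
        · exact hcd
        · exact le_rfl
      by_cases hR : x ∈ R ∧ y ∈ R
      · simp only [hcR, if_pos hR]
        by_cases hx : d x₀ x ≤ b
        · rw [if_pos ⟨hR.1, hx⟩]
          have := mul_le_mul_of_nonneg_left (hfd x y) (hc x y)
          linarith
        · by_cases hy : d x₀ y ≤ b
          · rw [if_pos (c := y ∈ R ∧ d x₀ y ≤ b) ⟨hR.2, hy⟩]
            have := mul_le_mul_of_nonneg_left (hfd x y) (hc x y)
            linarith
          · rw [hfb x (not_le.1 hx).le, hfb y (not_le.1 hy).le, sub_self, abs_zero, mul_zero]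
            linarith
      · simp only [hcR, if_neg hR, zero_mul]
        linarith
    have e1 : ∑ x, ∑ y, (if x ∈ R ∧ d x₀ x ≤ b then c x y * d x y else 0) ≤ vol (j + 1) := by
      simp only [hvol]
      rw [sum_filter, ← sum_filter_add_sum_filter_not univ (· ∈ R)]
      have e2 : ∑ x with x ∉ R, ∑ y, (if x ∈ R ∧ d x₀ x ≤ b then c x y * d x y else 0) = 0 := by
        refine sum_eq_zero fun x hx => sum_eq_zero fun y _ => if_neg fun h => ?_
        exact (mem_filter.1 hx).2 h.1
      rw [e2, add_zero, filter_mem_eq_inter, univ_inter]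
      refine sum_le_sum fun x hx => ?_
      by_cases h : d x₀ x ≤ b
      · rw [if_pos h]
        have e3 : ∑ y, (if x ∈ R ∧ d x₀ x ≤ b then c x y * d x y else 0) =
            ∑ y, c x y * d x y := sum_congr rfl fun y _ => if_pos ⟨hx, h⟩
        rw [e3]
        unfold wt
        linarith
      · rw [if_neg h]
        exact le_of_eq (sum_eq_zero fun y _ => if_neg fun h' => h h'.2)
    have e4 : ∑ x, ∑ y, (if y ∈ R ∧ d x₀ y ≤ b then c x y * d x y else 0) ≤ vol (j + 1) := by
      refine le_trans (le_of_eq ?_) e1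
      rw [sum_comm]
      refine sum_congr rfl fun x _ => sum_congr rfl fun y _ => ?_
      rw [hsym y x, hs y x]
    calc ∑ x, ∑ y, cR x y * |f x - f y| ≤ ∑ x, ∑ y,
        ((if x ∈ R ∧ d x₀ x ≤ b then c x y * d x y else 0) +
          (if y ∈ R ∧ d x₀ y ≤ b then c x y * d x y else 0)) :=
          sum_le_sum fun x _ => sum_le_sum fun y _ => e0 x y
      _ = ∑ x, ∑ y, (if x ∈ R ∧ d x₀ x ≤ b then c x y * d x y else 0) +
          ∑ x, ∑ y, (if y ∈ R ∧ d x₀ y ≤ b then c x y * d x y else 0) := by
          simp only [sum_add_distrib]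
      _ ≤ _ := by linarith
  have h3 : vol j ≤ ∑ x ∈ S, wt c d q x := by
    refine sum_le_sum_of_subset_of_nonneg (fun x hx => ?_) fun x _ _ => hw0 x
    rw [mem_filter] at hx
    rw [hS, mem_filter]
    exact ⟨hx.1, hx.2.trans hat⟩
  rw [hba] at hcut
  have h4 : τ / J * (2 * cutIn c R S) ≤ 2 * (2 * ∑ x ∈ S, wt c d q x) := by
    have h5 := mul_le_mul_of_nonneg_left h1 hstep.le
    linarith
  have h6 := mul_le_mul_of_nonneg_left h4 hJr.le
  have h7 : (J : ℝ) * (τ / J * (2 * cutIn c R S)) = 2 * (τ * cutIn c R S) := by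
    field_simp
  rw [h7] at h6
  linarith

/-- The decomposition. -/
lemma grow (hc : ∀ i j, 0 ≤ c i j) (hsym : ∀ i j, c i j = c j i)
    (hd0 : ∀ x, d x x = 0) (hd : ∀ x y, 0 ≤ d x y) (hs : ∀ x y, d x y = d y x)
    (ht : ∀ x y z, d x z ≤ d x y + d y z)
    {τ : ℝ} (hτ : 0 < τ) {J : ℕ} {q : ℝ} (hq : 0 ≤ q)
    (hJ : ∑ x, wt c d q x < 2 ^ J * q) {lam : ℝ} (hlam : 0 ≤ lam) {B : Finset V}
    (hB : ∀ x ∈ B, ∀ S : Finset V, S ⊆ ball d x τ → lam * S.card ≤ cutCap c S)
    (R : Finset V) :
    τ * (lam * (B ∩ R).card) ≤ 4 * J * ∑ x ∈ R, wt c d q x + τ * cutCap c R := by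
  classical
  have hw0 : ∀ x, 0 ≤ wt c d q x := fun x =>
    add_nonneg hq (sum_nonneg fun y _ => mul_nonneg (hc x y) (hd x y))
  induction R using Finset.strongInduction with
  | H R ih =>
    rcases (B ∩ R).eq_empty_or_nonempty with h | ⟨x₀, hx₀⟩
    · rw [h, card_empty, Nat.cast_zero, mul_zero, mul_zero]
      have h1 : 0 ≤ ∑ x ∈ R, wt c d q x := sum_nonneg fun x _ => hw0 x
      have h2 := cutCap_nonneg hc R
      positivity
    · rw [mem_inter] at hx₀
      obtain ⟨r, hr0, hrτ, hr⟩ := region hc hsym hd0 hd hs ht R hx₀.2 hτ hq hJ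
      set S := R.filter fun x => d x₀ x ≤ r with hS
      have hSR : S ⊆ R := filter_subset _ _
      have hx₀S : x₀ ∈ S := by
        rw [hS, mem_filter]
        exact ⟨hx₀.2, by rw [hd0]; exact hr0⟩
      have hss : R \ S ⊂ R := by
        refine (ssubset_iff_of_subset sdiff_subset).2 ⟨x₀, hx₀.2, fun h => ?_⟩
        exact (mem_sdiff.1 h).2 hx₀S
      have h1 := ih (R \ S) hss
      have h2 : lam * S.card ≤ cutCap c S := by
        refine hB x₀ hx₀.1 S fun y hy => ?_
        rw [hS, mem_filter] at hy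
        rw [mem_ball]
        exact hy.2.trans hrτ.le
      have h3 : ((B ∩ R).card : ℝ) ≤ S.card + (B ∩ (R \ S)).card := by
        have h4 : B ∩ R ⊆ S ∪ (B ∩ (R \ S)) := by
          intro y hy
          rw [mem_inter] at hy
          rw [mem_union, mem_inter, mem_sdiff]
          by_cases h : y ∈ S
          · exact Or.inl h
          · exact Or.inr ⟨hy.1, hy.2, h⟩
        exact_mod_cast (card_le_card h4).trans (card_union_le _ _)
      have h5 : ∑ x ∈ R, wt c d q x = ∑ x ∈ R \ S, wt c d q x + ∑ x ∈ S, wt c d q x :=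
        (sum_sdiff hSR).symm
      have h6 : cutCap c S + cutCap c (R \ S) = cutCap c R + 2 * cutIn c R S := by
        have e1 : Sᶜ = Rᶜ ∪ (R \ S) := by
          ext y
          rw [mem_compl, mem_union, mem_compl, mem_sdiff]
          constructor
          · intro h
            by_cases hy : y ∈ R
            · exact Or.inr ⟨hy, h⟩
            · exact Or.inl hy
          · rintro (h | h)
            · exact fun h' => h (hSR h')
            · exact h.2
        have e1d : Disjoint Rᶜ (R \ S) :=
          disjoint_left.2 fun y h1 h2 => (mem_compl.1 h1) (mem_sdiff.1 h2).1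
        have e2 : (R \ S)ᶜ = Rᶜ ∪ S := by
          ext y
          rw [mem_compl, mem_union, mem_compl, mem_sdiff]
          constructor
          · intro h
            by_cases hy : y ∈ R
            · exact Or.inr (by by_contra h'; exact h ⟨hy, h'⟩)
            · exact Or.inl hy
          · rintro (h | h) ⟨h1, h2⟩
            · exact h h1
            · exact h2 h
        have e2d : Disjoint Rᶜ S :=
          disjoint_left.2 fun y h1 h2 => (mem_compl.1 h1) (hSR h2)
        have e3 : cutCap c S = ∑ x ∈ S, ∑ y ∈ Rᶜ, c x y + cutIn c R S := by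
          unfold cutCap cutIn
          rw [← sum_add_distrib]
          refine sum_congr rfl fun x _ => ?_
          rw [e1, sum_union e1d]
        have e4 : cutCap c (R \ S) = ∑ x ∈ R \ S, ∑ y ∈ Rᶜ, c x y + cutIn c R S := by
          have e5 : cutIn c R S = ∑ x ∈ R \ S, ∑ y ∈ S, c x y := by
            unfold cutIn
            rw [sum_comm]
            exact sum_congr rfl fun x _ => sum_congr rfl fun y _ => hsym y x
          rw [e5]
          unfold cutCap
          rw [← sum_add_distrib]
          refine sum_congr rfl fun x _ => ?_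
          rw [e2, sum_union e2d]
        have e6 : cutCap c R = ∑ x ∈ R \ S, ∑ y ∈ Rᶜ, c x y + ∑ x ∈ S, ∑ y ∈ Rᶜ, c x y :=
          (sum_sdiff hSR).symm
        rw [e3, e4, e6]
        ring
      have h7 : lam * ((B ∩ R).card : ℝ) ≤ lam * S.card + lam * (B ∩ (R \ S)).card := by
        rw [← mul_add]
        exact mul_le_mul_of_nonneg_left h3 hlam
      have h8 := mul_le_mul_of_nonneg_left h7 hτ.le
      have h9 := mul_le_mul_of_nonneg_left h2 hτ.le
      have h10 : τ * (cutCap c S + cutCap c (R \ S)) = τ * (cutCap c R + 2 * cutIn c R S) := by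
        rw [h6]
      rw [h5]
      nlinarith

end

variable {V : Type*} [Fintype V] [DecidableEq V] [Nontrivial V] {c d : V → V → ℝ}

/-- **Small sets with a large boundary: the alternative.** -/
theorem alt_of_sse (hc : ∀ i j, 0 ≤ c i j) (hsym : ∀ i j, c i j = c j i) {k : ℕ}
    {H : ℝ} (hH : 1 ≤ H)
    (hsse : ∀ S : Finset V, 32 * k * S.card < Fintype.card V →
      ((Nat.log 2 (Fintype.card V) : ℝ) + 2) * (phi c * Fintype.card V * S.card) ≤
        6 * H * cutCap c S) : Alt0 c k H := by
  classical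
  intro d hd0 hd hs ht τ hτ
  set Q := ∑ x, ∑ y, c x y * d x y with hQ
  have hQ0 : 0 ≤ Q := sum_nonneg fun x _ => sum_nonneg fun y _ => mul_nonneg (hc x y) (hd x y)
  set n := Fintype.card V with hn
  have hn1 : 0 < n := Fintype.card_pos
  have hn0 : (0 : ℝ) < n := by exact_mod_cast hn1
  have hphi := phi_nonneg hc
  have hH0 : 0 < H := by linarith
  rcases le_or_gt (phi c * (τ * (n : ℝ) ^ 2)) (768 * H * Q) with hleft | hright
  · exact Or.inl hleft
  right
  set q : ℝ := phi c * τ * n / (768 * H) with hq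
  have hQq : Q < n * q := by
    rw [hq, mul_div_assoc', lt_div_iff₀ (by positivity)]
    linarith
  have hq0 : 0 < q := by
    by_contra h
    rw [not_lt] at h
    have := mul_nonpos_of_nonneg_of_nonpos hn0.le h
    linarith
  set J : ℕ := Nat.log 2 n + 2 with hJ
  have hJr : (J : ℝ) = (Nat.log 2 n : ℝ) + 2 := by rw [hJ]; push_cast; ring
  have hJ0 : (0 : ℝ) < J := by
    rw [hJr]
    have : (0 : ℝ) ≤ (Nat.log 2 n : ℝ) := Nat.cast_nonneg _
    linarith
  have htot : ∑ x, wt c d q x = n * q + Q := by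
    unfold wt
    rw [sum_add_distrib, sum_const, card_univ, nsmul_eq_mul]
  have h2n : 2 * (n : ℝ) ≤ 2 ^ J := by
    have h1 : n < 2 ^ (Nat.log 2 n + 1) := Nat.lt_pow_succ_log_self (by norm_num) n
    have h2 : 2 * n ≤ 2 ^ J := by
      rw [hJ, pow_succ]
      rw [pow_succ] at h1 ⊢
      omega
    exact_mod_cast h2
  have hJq : ∑ x, wt c d q x < 2 ^ J * q := by
    rw [htot]
    have := mul_le_mul_of_nonneg_right h2n hq0.le
    linarith
  set lam : ℝ := J * (phi c * n) / (6 * H) with hlam
  have hlam0 : 0 ≤ lam := by positivity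
  set B : Finset V := univ.filter fun x => ¬ n ≤ 32 * k * (ball d x τ).card with hBdef
  have hB : ∀ x ∈ B, ∀ S : Finset V, S ⊆ ball d x τ → lam * S.card ≤ cutCap c S := by
    intro x hx S hS
    have h1 : 32 * k * S.card < n :=
      lt_of_le_of_lt (Nat.mul_le_mul_left _ (card_le_card hS)) (not_le.1 (mem_filter.1 hx).2)
    have h2 := hsse S h1
    rw [← hJr] at h2
    rw [hlam, div_mul_eq_mul_div, div_le_iff₀ (by positivity)]
    linarith
  have h1 := grow hc hsym hd0 hd hs ht hτ hq0.le hJq hlam0 hB univ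
  have h2 : cutCap c (univ : Finset V) = 0 := by simp [cutCap]
  rw [h2, mul_zero, add_zero, inter_univ, htot] at h1
  have h3 : (B.card : ℝ) ≤ n / 16 := by
    have h4 : 4 * (J : ℝ) * (n * q + Q) ≤ 4 * J * (2 * (n * q)) :=
      mul_le_mul_of_nonneg_left (by linarith) (by positivity)
    have h5 : τ * (lam * (B.card : ℝ)) ≤ 8 * J * n * q := by linarith
    have h6 : τ * (lam * (B.card : ℝ)) = (J * (phi c * n * τ) / (6 * H)) * B.card := by
      rw [hlam]; ring
    have h7 : 8 * J * n * q = (J * (phi c * n * τ) / (6 * H)) * (n / 16) := by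
      rw [hq]; field_simp; ring
    rw [h6, h7] at h5
    have h8 : 0 < J * (phi c * n * τ) / (6 * H) := by
      have h9 : 0 < phi c * τ * n := by
        by_contra h
        rw [not_lt] at h
        have : q ≤ 0 := by
          rw [hq]
          exact div_nonpos_of_nonpos_of_nonneg h (by positivity)
        linarith
      have h10 : 0 < phi c * n * τ := by linarith
      positivity
    exact le_of_mul_le_mul_left h5 h8
  refine ⟨Bᶜ, ?_, fun x hx => ?_⟩
  · rw [card_compl, Nat.cast_sub (card_le_univ B)]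
    rw [← hn]
    linarith
  · by_contra h
    exact (mem_compl.1 hx) (mem_filter.2 ⟨mem_univ _, h⟩)

/-- **Small sets with a large boundary.** If every set of fewer than `n / (32 k)` vertices has a
boundary which is at least `(log₂ n + 2) / (6 H)` times `Φ n |S|`, the gap is
`O(H √(1 + log k))`. -/
theorem main_sse (hc : ∀ i j, 0 ≤ c i j) (hsym : ∀ i j, c i j = c j i) {k : ℕ} (hk : 1 ≤ k)
    {H : ℝ} (hH : 1 ≤ H)
    (hsse : ∀ S : Finset V, 32 * k * S.card < Fintype.card V →
      ((Nat.log 2 (Fintype.card V) : ℝ) + 2) * (phi c * Fintype.card V * S.card) ≤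
        6 * H * cutCap c S) :
    phi c ≤ 100000000000000 * H * Real.sqrt (1 + (Nat.log 2 k : ℝ)) * glValue c ∧
    ∀ d : V → V → ℝ, (∀ i, d i i = 0) → (∀ i j, d i j = d j i) →
      (∀ i j k, d i k ≤ d i j + d j k) →
      phi c * ∑ i, ∑ j, d i j ≤ 52434 * (H + (Nat.log 2 k : ℝ)) * ∑ i, ∑ j, c i j * d i j := by
  have halt := alt_of_sse hc hsym hH hsse
  refine ⟨gap_bound0 hc hsym hk hH halt, fun d hd0 hs ht => ?_⟩
  refine metric_bound0 hc hsym hk hH halt hd0 (fun x y => ?_) hs ht
  have h1 := ht x y x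
  rw [hd0, hs y x] at h1
  linarith

end Vale.Agent.P318.R2.H29
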