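import Vale.Agent.P318.R2.H821.SpreadMain

/-!
# The random walk of a capacity function

At every vertex `x` the walk may be run for its own number `t x ≤ H` of steps; the kernel
`deg x * P ^ t x` has the row sums of `c` and costs at most `H` times as much as `c`.
-/

open Finset

set_option linter.unusedSectionVars false

namespace Vale.Agent.P318.R2.H29

open Vale.Agent.P318.H867 Vale.Agent.P318.H724 Vale.Agent.P318.R2.H344 Vale.Agent.P318.R2.H821

/-- The transition matrix of the random walk: from `x` to `y` with probability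
`c x y / ∑ z, c x z`. -/
noncomputable def walk {V : Type*} [Fintype V] (c : V → V → ℝ) : Matrix V V ℝ :=
  Matrix.of fun x y => c x y / ∑ z, c x z

/-- The distribution of the walk from `x` after `t x` steps, with the weight of the row of
`x`. -/
noncomputable def walkKernel {V : Type*} [Fintype V] [DecidableEq V] (c : V → V → ℝ)
    (t : V → ℕ) (x y : V) : ℝ :=
  (∑ z, c x z) * (walk c ^ t x) x y

variable {V : Type*} [Fintype V] [DecidableEq V] {c d : V → V → ℝ}

lemma walk_apply (c : V → V → ℝ) (x y : V) : walk c x y = c x y / ∑ z, c x z := rfl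

lemma walk_nonneg (hc : ∀ i j, 0 ≤ c i j) (s : ℕ) (x y : V) : 0 ≤ (walk c ^ s) x y := by
  induction s generalizing y with
  | zero =>
    rw [pow_zero, Matrix.one_apply]
    split_ifs <;> norm_num
  | succ s ih =>
    rw [pow_succ, Matrix.mul_apply]
    exact sum_nonneg fun k _ => mul_nonneg (ih k)
      (div_nonneg (hc k y) (sum_nonneg fun z _ => hc k z))

lemma walk_row_le (c : V → V → ℝ) (x : V) : ∑ y, walk c x y ≤ 1 := by
  simp_rw [walk_apply]
  rw [← sum_div]
  exact div_self_le_one _

lemma deg_mul_walk (hc : ∀ i j, 0 ≤ c i j) (x y : V) :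
    (∑ z, c x z) * walk c x y = c x y := by
  rw [walk_apply]
  rcases eq_or_ne (∑ z, c x z) 0 with h | h
  · rw [h, zero_mul]
    exact ((sum_eq_zero_iff_of_nonneg fun z _ => hc x z).1 h y (mem_univ y)).symm
  · rw [mul_div_cancel₀ _ h]

/-- The degrees are stationary. -/
lemma walk_stat (hc : ∀ i j, 0 ≤ c i j) (hsym : ∀ i j, c i j = c j i) (s : ℕ) (y : V) :
    ∑ x, (∑ z, c x z) * (walk c ^ s) x y = ∑ z, c y z := by
  induction s generalizing y with
  | zero => simp [Matrix.one_apply]
  | succ s ih =>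
    have h1 : ∀ x, (walk c ^ (s + 1)) x y = ∑ k, (walk c ^ s) x k * walk c k y := fun x => by
      rw [pow_succ, Matrix.mul_apply]
    simp_rw [h1, mul_sum]
    rw [sum_comm]
    calc ∑ k, ∑ x, (∑ z, c x z) * ((walk c ^ s) x k * walk c k y)
        = ∑ k, (∑ x, (∑ z, c x z) * (walk c ^ s) x k) * walk c k y := by
          apply sum_congr rfl; intro k _
          rw [sum_mul]
          apply sum_congr rfl; intro x _
          ring
      _ = ∑ k, c y k := by
          apply sum_congr rfl; intro k _
          rw [ih k, deg_mul_walk hc, hsym]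

/-- The row sums of the kernel. -/
lemma kernel_row (hc : ∀ i j, 0 ≤ c i j) (hsym : ∀ i j, c i j = c j i) (s : ℕ) (x : V) :
    ∑ y, (∑ z, c x z) * (walk c ^ s) x y = ∑ z, c x z := by
  induction s with
  | zero => simp [Matrix.one_apply]
  | succ s ih =>
    have h1 : ∀ y, (walk c ^ (s + 1)) x y = ∑ k, (walk c ^ s) x k * walk c k y := fun y => by
      rw [pow_succ, Matrix.mul_apply]
    simp_rw [h1, mul_sum]
    rw [sum_comm]
    refine Eq.trans ?_ ih
    apply sum_congr rfl; intro k _
    have h2 : ∑ y, (∑ z, c x z) * ((walk c ^ s) x k * walk c k y) =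
        ((∑ z, c x z) * (walk c ^ s) x k) * ∑ y, walk c k y := by
      rw [mul_sum]
      exact sum_congr rfl fun y _ => by ring
    have h3 : ((∑ z, c x z) * (walk c ^ s) x k) * ∑ y, walk c k y =
        (∑ z, c x z) * (walk c ^ s) x k := by
      rcases eq_or_ne (∑ z, c k z) 0 with h | h
      · have h4 : (∑ z, c x z) * (walk c ^ s) x k = 0 := by
          have h5 := walk_stat hc hsym s k
          rw [h] at h5
          exact (sum_eq_zero_iff_of_nonneg fun w _ =>
            mul_nonneg (sum_nonneg fun z _ => hc w z) (walk_nonneg hc s w k)).1 h5 x (mem_univ x)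
        rw [h4, zero_mul]
      · have h4 : ∑ y, walk c k y = 1 := by
          simp_rw [walk_apply]
          rw [← sum_div, div_self h]
        rw [h4, mul_one]
    rw [h2, h3]

/-- The expected length of the step after time `i`. -/
noncomputable def stepLen (c d : V → V → ℝ) (i : ℕ) (x : V) : ℝ :=
  ∑ y, (walk c ^ i) x y * ∑ z, walk c y z * d y z

lemma stepLen_nonneg (hc : ∀ i j, 0 ≤ c i j) (hd : ∀ x y, 0 ≤ d x y) (i : ℕ) (x : V) :
    0 ≤ stepLen c d i x :=
  sum_nonneg fun y _ => mul_nonneg (walk_nonneg hc i x y) (sum_nonneg fun z _ =>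
    mul_nonneg (div_nonneg (hc y z) (sum_nonneg fun w _ => hc y w)) (hd y z))

/-- The total expected length of one step, in the stationary measure. -/
lemma sum_stepLen (hc : ∀ i j, 0 ≤ c i j) (hsym : ∀ i j, c i j = c j i) (i : ℕ) :
    ∑ x, (∑ z, c x z) * stepLen c d i x = ∑ x, ∑ y, c x y * d x y := by
  unfold stepLen
  simp_rw [mul_sum]
  calc ∑ x, ∑ y, ∑ z, (∑ w, c x w) * ((walk c ^ i) x y * (walk c y z * d y z))
      = ∑ y, ∑ x, ∑ z, (∑ w, c x w) * ((walk c ^ i) x y * (walk c y z * d y z)) := sum_comm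
    _ = ∑ y, ∑ z, c y z * d y z := by
        apply sum_congr rfl; intro y _
        rw [sum_comm]
        apply sum_congr rfl; intro z _
        calc ∑ x, (∑ w, c x w) * ((walk c ^ i) x y * (walk c y z * d y z))
            = (∑ x, (∑ w, c x w) * (walk c ^ i) x y) * (walk c y z * d y z) := by
              rw [sum_mul]
              exact sum_congr rfl fun x _ => by ring
          _ = c y z * d y z := by
              rw [walk_stat hc hsym, ← mul_assoc, deg_mul_walk hc]

/-- The distance travelled is at most the sum of the lengths of the steps. -/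
lemma travel (hc : ∀ i j, 0 ≤ c i j) (hd0 : ∀ x, d x x = 0) (hd : ∀ x y, 0 ≤ d x y)
    (ht : ∀ x y z, d x z ≤ d x y + d y z) (x : V) (s : ℕ) :
    ∑ y, (walk c ^ s) x y * d x y ≤ ∑ i ∈ range s, stepLen c d i x := by
  induction s with
  | zero => simp [Matrix.one_apply, hd0]
  | succ s ih =>
    have h1 : ∀ y, (walk c ^ (s + 1)) x y * d x y ≤
        ∑ k, (walk c ^ s) x k * walk c k y * (d x k + d k y) := by
      intro y
      rw [pow_succ, Matrix.mul_apply, sum_mul]
      exact sum_le_sum fun k _ => mul_le_mul_of_nonneg_left (ht x k y)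
        (mul_nonneg (walk_nonneg hc _ x k) (div_nonneg (hc k y) (sum_nonneg fun w _ => hc k w)))
    calc ∑ y, (walk c ^ (s + 1)) x y * d x y
        ≤ ∑ y, ∑ k, (walk c ^ s) x k * walk c k y * (d x k + d k y) :=
          sum_le_sum fun y _ => h1 y
      _ = ∑ k, ∑ y, (walk c ^ s) x k * walk c k y * (d x k + d k y) := sum_comm
      _ ≤ ∑ k, ((walk c ^ s) x k * d x k + (walk c ^ s) x k * ∑ y, walk c k y * d k y) := by
          apply sum_le_sum; intro k _
          have e1 : ∀ y, (walk c ^ s) x k * walk c k y * (d x k + d k y) =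
              (walk c ^ s) x k * d x k * walk c k y +
                (walk c ^ s) x k * (walk c k y * d k y) := fun y => by ring
          simp_rw [e1]
          rw [sum_add_distrib, ← mul_sum, ← mul_sum]
          have e2 := mul_le_mul_of_nonneg_left (walk_row_le c k)
            (mul_nonneg (walk_nonneg hc s x k) (hd x k))
          rw [mul_one] at e2
          linarith
      _ = ∑ k, (walk c ^ s) x k * d x k + stepLen c d s x := sum_add_distrib
      _ ≤ _ := by rw [sum_range_succ]; linarith

/-- The walk kernel has the row sums of `c` and costs at most `H` times as much. -/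
theorem walkKernel_carries [Nonempty V] (hc : ∀ i j, 0 ≤ c i j) (hsym : ∀ i j, c i j = c j i)
    {t : V → ℕ} {H : ℝ} (htH : ∀ x, (t x : ℝ) ≤ H) : Carries c (walkKernel c t) H := by
  have hdeg : ∀ x, 0 ≤ ∑ z, c x z := fun x => sum_nonneg fun z _ => hc x z
  refine ⟨fun x y => mul_nonneg (hdeg x) (walk_nonneg hc _ x y), fun x => ?_, ?_⟩
  · unfold walkKernel
    rw [kernel_row hc hsym]
  · intro d hd0 hd hs ht
    have hQ0 : 0 ≤ ∑ x, ∑ y, c x y * d x y :=
      sum_nonneg fun x _ => sum_nonneg fun y _ => mul_nonneg (hc x y) (hd x y)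
    obtain ⟨x₀⟩ : Nonempty V := inferInstance
    have hH0 : 0 ≤ H := le_trans (Nat.cast_nonneg _) (htH x₀)
    set N : ℕ := ⌊H⌋₊ with hN
    have htN : ∀ x, t x ≤ N := fun x => Nat.le_floor (htH x)
    have h1 : ∀ x, ∑ y, walkKernel c t x y * d x y ≤
        ∑ i ∈ range N, (∑ z, c x z) * stepLen c d i x := by
      intro x
      unfold walkKernel
      simp_rw [mul_assoc]
      rw [← mul_sum, ← mul_sum]
      refine mul_le_mul_of_nonneg_left ((travel hc hd0 hd ht x (t x)).trans ?_) (hdeg x)
      exact sum_le_sum_of_subset_of_nonneg (range_subset_range.2 (htN x)) fun i _ _ =>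
        stepLen_nonneg hc hd i x
    calc ∑ x, ∑ y, walkKernel c t x y * d x y
        ≤ ∑ x, ∑ i ∈ range N, (∑ z, c x z) * stepLen c d i x := sum_le_sum fun x _ => h1 x
      _ = ∑ i ∈ range N, ∑ x, ∑ y, c x y * d x y := by
          rw [sum_comm]
          exact sum_congr rfl fun i _ => sum_stepLen hc hsym i
      _ = N * ∑ x, ∑ y, c x y * d x y := by
          rw [sum_const, card_range, nsmul_eq_mul]
      _ ≤ _ := mul_le_mul_of_nonneg_right (Nat.floor_le hH0) hQ0

/-- A vertex is spread for the walk kernel if every set which the walk hits at time `t x` with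
probability at least `3 / 4` has at least `n / k` elements. -/
lemma spreadAt_walk (hc : ∀ i j, 0 ≤ c i j) (hsym : ∀ i j, c i j = c j i) {k : ℕ} {t : V → ℕ}
    {x : V} (h : ∀ S : Finset V, 3 ≤ 4 * ∑ y ∈ S, (walk c ^ t x) x y →
      Fintype.card V ≤ k * S.card) : SpreadAt (walkKernel c t) k x := by
  intro S h0 hS
  apply h S
  unfold walkKernel at hS h0
  rw [kernel_row hc hsym] at hS h0
  rw [← mul_sum] at hS
  have h1 : (∑ z, c x z) * 3 ≤ (∑ z, c x z) * (4 * ∑ y ∈ S, (walk c ^ t x) x y) := by linarith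
  exact le_of_mul_le_mul_left h1 h0

/-- **Spread walks or structured.** -/
theorem main_walk [Nontrivial V] (hc : ∀ i j, 0 ≤ c i j) (hsym : ∀ i j, c i j = c j i) {k : ℕ}
    (hk : 1 ≤ k) {H : ℝ} (hH : 1 ≤ H) {t : V → ℕ} (htH : ∀ x, (t x : ℝ) ≤ H)
    (h : Cuttable V (Structured c (walkKernel c t) k H)) :
    phi c ≤ 100000000000000 * H * Real.sqrt (1 + (Nat.log 2 k : ℝ)) * glValue c ∧
    ∀ d : V → V → ℝ, (∀ i, d i i = 0) → (∀ i j, d i j = d j i) →
      (∀ i j k, d i k ≤ d i j + d j k) →
      phi c * ∑ i, ∑ j, d i j ≤ 52434 * (H + (Nat.log 2 k : ℝ)) * ∑ i, ∑ j, c i j * d i j :=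
  main_spread hc hsym hk hH (walkKernel_carries hc hsym htH) h

/-- **A third of the vertices with spread walks**, no condition on the other vertices: if from
every `x ∈ X` the walk, after `t x ≤ H` steps, hits no set of fewer than `n / k` vertices with
probability at least `3 / 4`, the gap is `O(H √(1 + log k))`. -/
theorem walk_third [Nontrivial V] (hc : ∀ i j, 0 ≤ c i j) (hsym : ∀ i j, c i j = c j i) {k : ℕ}
    (hk : 1 ≤ k) {H : ℝ} (hH : 1 ≤ H) {t : V → ℕ} (htH : ∀ x, (t x : ℝ) ≤ H) {X : Finset V}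
    (hX : Fintype.card V ≤ 3 * X.card)
    (h : ∀ x ∈ X, ∀ S : Finset V, 3 ≤ 4 * ∑ y ∈ S, (walk c ^ t x) x y →
      Fintype.card V ≤ k * S.card) :
    phi c ≤ 100000000000000 * H * Real.sqrt (1 + (Nat.log 2 k : ℝ)) * glValue c ∧
    ∀ d : V → V → ℝ, (∀ i, d i i = 0) → (∀ i j, d i j = d j i) →
      (∀ i j k, d i k ≤ d i j + d j k) →
      phi c * ∑ i, ∑ j, d i j ≤ 52434 * (H + (Nat.log 2 k : ℝ)) * ∑ i, ∑ j, c i j * d i j :=
  main_walk hc hsym hk hH htH
    (cuttable_of_third hc hX fun x hx => spreadAt_walk hc hsym (h x hx))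

end Vale.Agent.P318.R2.H29
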